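import Crest.Agent.X212.G75.Std
import Crest.Agent.X212.G75.Tm
import Crest.Agent.X212.Cht98.Nk

/-!
# X212 / Fex7 (helper7): matched walls have isomorphic cylinders; the order of the walls of a chain
-/

set_option autoImplicit false
set_option linter.unusedSectionVars false
noncomputable section
open scoped Manifold ContDiff Topology
open Set Function Filter

namespace Crest.Agent.X212.Fex7
open An M G75 Cyf70
open Met55 (atx)
open Dr59 (mf)

variable {κ lam : Type} [Fintype κ] [Fintype lam] [DecidableEq lam]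

section mid
variable {X X' : Mf 4} {A A' A₀ : Type} [Fintype A] [Fintype A'] [Fintype A₀] {M : Mark X A κ}
  {M' : Mark X' A' κ} (I : MId M M' A₀)

theorem oY_eq (a : A₀) (i k l n : Option κ) (y : (M.bn (I.f a)).Y.M) :
    M'.oY (I.f' a) i k l n (I.g a y) = M.oY (I.f a) i k l n y := by
  refine cf_rel (f := fun q : (M.bn (I.f a)).Y.M × ℝ => (I.g a q.1, q.2)) (y := (y, 0))
    (Mark.finrank_cyl _) (Mark.finrank_cyl _) (fun i => ?_) (Mark.sp_ce _) (Mark.sp_ce _) ?_ _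
  · have h2 := (((I.g a).mdifferentiable (by simp) y).hasMFDerivAt.comp (y, (0 : ℝ))
      (hasMFDerivAt_fst (I' := 𝓘(ℝ, ℝ)) (y, (0 : ℝ)))).prodMk 
      (hasMFDerivAt_snd (I := (M.bn (I.f a)).Y.I) (I' := 𝓘(ℝ, ℝ)) (y, (0 : ℝ)))
    refine (DFunLike.congr_fun (Dr59.mf_of_has h2) _).trans ?_
    cases i with
    | none => exact Prod.ext (map_zero (mf (M.bn (I.f a)).Y.I (M'.bn (I.f' a)).Y.I (I.g a) y)) rfl
    | some k => exact Prod.ext (I.gY a k y) rfl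
  · rw [← pm_gam]
    exact I.ori.pm (s := {(y, 0)}) (fun q _ => (M.bn _).oe.loc q) (fun q _ => I.sub a ⟨q, rfl⟩) _ rfl

/-- **matched walls have isomorphic cylinders** -/
theorem cy_iso {N : ML M lam} {N' : ML M' lam} {V w} (h : LId N N' I V w) (a : A₀) :
    Cy.Iso (N.cy (I.f a)) (N'.cy (I.f' a)) (I.g a) := ⟨I.gY a, oY_eq I a, h.LY a⟩

theorem band_sub {a b : A₀} {e : Bool} (h : (M.sys.w (I.f a)).band ⊆ (M.sys.w (I.f b)).sd e) :
    (M'.sys.w (I.f' a)).band ⊆ (M'.sys.w (I.f' b)).sd e := by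
  rintro _ ⟨⟨y, s⟩, rfl⟩
  obtain ⟨y, rfl⟩ := (I.g a).surjective y
  exact I.jj a (y, s) ▸ (I.sd b e _ (I.sub a ⟨_, rfl⟩)).2 (h ⟨_, rfl⟩)

theorem exists_iso {N : ML M lam} {N₀ : ML M' lam} {V w} (h : LId N N₀ I V w) {x : A₀} {a : A}
    {a' : A'} (e : I.f x = a) (e' : I.f' x = a') {L : Type} {N' : L → ML M' lam}
    (k : ∀ i, (N' i).LY a' = N₀.LY a') : ∃ g, (∀ i, Cy.Iso (N.cy a) ((N' i).cy a') g) ∧
      ∀ q, I.ψ ((M.bn a).j q) = (M'.bn a').j (g q.1, q.2) := by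
  subst e e'
  exact ⟨I.g x, fun i => ⟨I.gY x, oY_eq I x, (congrArg (Line51.Ln.pull _ _ _) (k i)).trans (h.LY x)⟩,
    I.jj x⟩

end mid

variable {Lm : LM κ lam} {y : G75.YD κ lam} {S : Scene Lm} {t : TD y S} {R : ℕ} {c : Cn S.L S.A}
  (hy : y.OK) (ht : t.OK R c)
include hy ht

theorem a_h : (S.M.sys.w t.a).band ⊆ (S.M.sys.w t.h).sd false ∧
    (S.M.sys.w t.h).band ⊆ (S.M.sys.w t.a).sd true := by
  have e0 : t.IH.f 0 = y.a := congrFun ht.hf0.1 0
  have e1 : t.IH.f 1 = y.h := congrFun ht.hf0.1 1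
  rw [← show t.IH.f' 0 = t.a from congrFun ht.hf0.2 0, ← show t.IH.f' 1 = t.h from congrFun ht.hf0.2 1]
  exact ⟨band_sub _ (by rw [e0, e1]; exact hy.rev.1), band_sub _ (by rw [e0, e1]; exact hy.ah.2)⟩

/-- the cylinders at `a` -/
theorem iso_a : ∃ g, (∀ i, Cy.Iso (y.N.cy y.a) ((S.N i).cy t.a) g) ∧
    ∀ q, t.IH.ψ ((y.M.bn y.a).j q) = (S.M.bn t.a).j (g q.1, q.2) :=
  exists_iso (a' := t.a) t.IH ht.hl (congrFun ht.hf0.1 0) (congrFun ht.hf0.2 0) fun i =>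
    (Cht98.cy_iso_refl ((S.N i).cy t.a)).L.symm.trans
      ((ht.left i).LY ⟨t.a, (a_h hy ht).1.trans subset_union_left⟩)

/-- the left side of `a` lies outside the lens walls -/
theorem left_out (hS : S.OK) {l : S.A} (hl : l ∈ S.ls) :
    (S.M.sys.w t.a).sd false ⊆ (S.M.sys.w l).sd true := fun x hx => by
  have := S.M.con
  obtain ⟨h1, h2⟩ := a_h hy ht
  have ne : t.h ≠ t.a := fun e => let ⟨z, hz⟩ := (S.M.sys.w t.a).ne false
    (S.M.sys.w t.a).not_mem_sd hz.2 (h2 (e ▸ hz.1))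
  have k : x ∉ hf S.M l false := fun j => (S.M.sys.w t.a).not_mem_sd hx
    (Wall.nest (hS.fzc ht.fz.2.1 ht.fz.1 ne) h1 h2 (.inl (ht.ls l hl j).1))
  exact ((S.M.sys.w l).mem_cases true x).resolve_right fun j =>
    j.elim (fun j => k (.inr ((S.M.sys.w l).core_subset j))) fun j => k (.inl j)

end Crest.Agent.X212.Fex7
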