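import Crest.Agent.X212.Fex7.Job
import Crest.Agent.X212.Fex7.Iso

/-!
# X212 / Fex7 (helper7): LEAF F-EX, prisms exist
-/

set_option autoImplicit false
set_option linter.unusedSectionVars false
noncomputable section
open scoped Manifold ContDiff Topology
open Set Function Filter Classical

namespace Crest.Agent.X212.Fex7
open An M G75 Wrd81 Jb7 Nd18 Ins26
open Br55 (CN)

variable {κ lam : Type} [Fintype κ] [Fintype lam] [DecidableEq lam] {Lm : LM κ lam} {S : Scene Lm}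
  {y : G75.YD κ lam} (t : TD y S)

/-- regions on the side `b` of `a` -/
def okS (b : Bool) (ρ : Reg S.A) : Prop :=
  S.M.sys.U ρ ⊆ (S.M.sys.w t.a).sd b ∧ ∀ x ∈ Sys.bd ρ, x = t.a ∨ t.Sd b x

/-- right regions that are not inside a lens wall -/
def okR (ρ : Reg S.A) : Prop := okS t true ρ ∧ okL S ρ

/-- the terms that are switched off at `u = 1` -/
def t0 (r n : ℕ) : TrS S (Σ r, Sw S.X.M S.A S.ls (lam ⊕ lam) r n) r n :=
  trE (.sigmaMk r) ((Tr.std S.M (okL S) S.nb (thA t.a)).mul fun s => 1 - uu s)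

/-- the left terms -/
def tL (m : ℕ) : TrS S (Σ m : ℕ, (Reg S.A × ℕ) × (Reg S.A × ℕ) × Tm S.X.M (lam ⊕ lam) (m + 1) 0)
    (m + 1) 0 := trE (.sigmaMk m) ((tF S.M (okS t false) (thA t.a)).mul uu)

/-- the right terms -/
def tR (k : ℕ) : TrS S (Σ k : ℕ, ((Reg S.A × ℕ) × (Reg S.A × ℕ) × Tm S.X.M (lam ⊕ lam) 0 k) ⊕
    (Reg S.A × ℕ) × (Reg S.A × ℕ) × S.ls × Tc S.X.M (lam ⊕ lam) 0) 0 k :=
  trE (.sigmaMk k) (((tF S.M (okR t) (thA t.a)).sum
    (tC S.M (okS t true) (okR t) S.nb (thA t.a))).mul uu)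

variable {t} {b : Bool} {s s' : S.A ⊕ Unit → ℝ} {ρ π π' : Reg S.A}

theorem cg2_side {a a' : Reg S.A × ℕ} (h : okS t b a.1 ∧ okS t b a'.1) (u : uu s = uu s')
    (e : ∀ x, t.Sd b x → s (.inl x) = s' (.inl x)) :
    cg2 S.M.sys a a' (thA t.a s) = cg2 S.M.sys a a' (thA t.a s') := by
  have k : ∀ {ρ} k, okS t b ρ → cg S.M.sys ρ k (thA t.a s) = cg S.M.sys ρ k (thA t.a s') :=
    fun k h => by
      rw [thA, thA, u]
      exact cg_congr (fun x hx => pv_congr fun _ o => e x ((h.2 x hx).resolve_left o))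
        fun x hx => pv_congr fun _ _ => e x (hx.2.1.trans h.1)
  exact congrArg₂ (· * ·) (k _ h.1) (k _ h.2)

theorem okS_of {e : S.M.Cl} (ha : t.a ∈ e.1) (h : π ∈ sdP t e b) : okS t b π :=
  ⟨h.2, fun x hx => or_iff_not_imp_left.2 fun o =>
    let ⟨b', j⟩ := Sys.mem_bd.1 hx; let ⟨_, hz⟩ := (S.M.sys.w x).ne b'
    Wall.band_subset (e.2 ha (h.1.bd_subset hx) (Ne.symm o)) hz.1 (h.2 (h.1.adj x b' j hz))⟩

theorem tL_sup (m : ℕ) (w) : TmIn S.X.I ((S.M.sys.w t.a).sd false) ((tL t m).tw w) ∧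
    ∀ l, (tL t m).cc l w = 0 := by
  refine trE_ind (P := fun τ _ _ g' => TmIn S.X.I _ τ ∧ ∀ l, g' l = 0) ⟨z0_in _, fun _ => rfl⟩
    (fun w => ⟨?_, fun _ => funext fun _ => mul_zero _⟩) w
  show TmIn _ _ (ite _ _ _)
  split_ifs with v
  exacts [v.tm.mono (union_subset v.ok.1.1 v.ok.2.1), z0_in _]

theorem tR_sup (k : ℕ) (w) : TmIn S.X.I ((S.M.sys.w t.a).sd true) ((tR t k).tw w) ∧
    ∀ l, XiIn S.X.I ((S.M.sys.w t.a).sd true) ((tR t k).tc l w).ξ := by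
  refine trE_ind (P := fun τ _ T _ => TmIn S.X.I _ τ ∧ ∀ l, XiIn S.X.I _ (T l).ξ)
    ⟨z0_in _, fun _ => trivial⟩ (fun w => ?_) w
  rcases w with w | w
  · refine ⟨?_, fun _ => trivial⟩
    show TmIn _ _ (ite _ _ _)
    split_ifs with v
    exacts [v.tm.mono (union_subset v.ok.1.1.1 v.ok.2.1.1), z0_in _]
  · refine ⟨z0_in _, fun l => ?_⟩
    show XiIn _ _ (Tc.ξ (@ite _ _ (_) _ _))
    split_ifs with v
    exacts [xi_mono v.2.xi (union_subset v.2.sd.1.1 v.2.sd.2.1), trivial]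

theorem tL_loc (m : ℕ) (u : uu s = uu s') (e : ∀ x, t.Sd false x → s (.inl x) = s' (.inl x)) (w) :
    (tL t m).co w s = (tL t m).co w s' :=
  trE_ind (P := fun _ g _ _ => g s = g s') rfl (fun _ => congrArg₂ (· * ·) u
    (ite_congr rfl (fun v => cg2_side (VF.ok v) u e) fun _ => rfl)) w

theorem tR_loc (k : ℕ) (u : uu s = uu s') (e : ∀ x, t.Sd true x → s (.inl x) = s' (.inl x)) (w) :
    (tR t k).co w s = (tR t k).co w s' ∧ ∀ l, (tR t k).cc l w s = (tR t k).cc l w s' := by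
  refine trE_ind (P := fun _ g _ g' => g s = g s' ∧ ∀ l, g' l s = g' l s') ⟨rfl, fun _ => rfl⟩
    (fun w => ?_) w
  rcases w with w | w
  · exact ⟨congrArg₂ (· * ·) u (ite_congr rfl (fun v => cg2_side ⟨(VF.ok v).1.1, (VF.ok v).2.1⟩ u e)
      fun _ => rfl), fun _ => congrArg₂ (· * ·) u rfl⟩
  · exact ⟨congrArg₂ (· * ·) u rfl, fun _ => congrArg₂ (· * ·) u
      (@ite_congr _ _ _ _ _ _ _ (_) (_) rfl (fun v => cg2_side (VC.sd (And.right v)) u e) fun _ => rfl)⟩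

section tp
variable (hS : S.OK)
include hS

theorem out_L (h : okL S ρ) (k : S.M.sys.IsReg ρ) : Out S.M.sys ↑S.ls ρ := fun _ hp l hl e c =>
  have := S.M.con
  side_of_cf (b := false) k hp c e (h l hl) (hS.lsi l hl)

theorem nb_pt (l : S.ls) : ∃ x ∈ S.nb l, ∀ l' ∈ (↑S.ls \ {l.1} : Set S.A), x ∈ (S.M.sys.w l').sd true :=
  (nb_ne l).imp fun _ hx => ⟨hx, fun l' k =>
    nb_out hS (l := ⟨l', k.1⟩) (fun e => k.2 (congrArg Subtype.val e).symm) hx⟩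

theorem tp0 (r n : ℕ) : TPs t (t0 t r n) :=
  ((tp_std (fun _ => out_L hS) (nb_pt hS)).mul (contDiff_const.sub contDiff_id)).ext _

theorem tpR (k : ℕ) : TPs t (tR t k) :=
  (((tp_F fun _ h => out_L hS h.2).sum (tp_C (fun _ h => out_L hS h.2) (nb_pt hS))).mul
    contDiff_id).ext _

theorem tpL {R c} (hy : y.OK) (ht : t.OK R c) (m : ℕ) : TPs t (tL t m) :=
  ((tp_F fun _ h _ _ _ _ hl _ _ => h.1.trans (left_out hy ht hS hl)).mul contDiff_id).ext _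

end tp

variable {N : ND (yY y).M (lam ⊕ lam)} {n : ℕ} {D : S.Dat} {c : Cn S.L S.A} {d : ℕ}

variable (n D) in
/-- **the prism** -/
@[reducible] def prism (hN : N.OK (yD y)) (T : ℝ) (m : S.M.Cl) {g}
    (hg : ∀ i, Cy.Iso (y.N.cy y.a) ((S.N i).cy t.a) g) : Pr t N n D :=
  ⟨T, m, _, _, _, g, hN, hg, fun _ _ _ => t0 t _ n, tL t, fun _ => tR t⟩

section ok
variable {hN : N.OK (yD y)} {T : ℝ} {μ : S.M.Cl} {g}
  {hg : ∀ i, Cy.Iso (y.N.cy y.a) ((S.N i).cy t.a) g} (H : Hy (prism n D hN T μ hg) c d)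
include H

theorem a_mem {i σ} (h : c i σ ≠ 0) (hs : Pr.Fc σ s) {e : S.M.Cl}
    (k : Sys.inf ((prism n D hN T μ hg).Θ s).2 = e.1) : t.a ∈ e.1 :=
  have j := H.dm_cl h hs.1
  k ▸ ((H.par j).2.trans (th_par H.cn.ok H.a j).2).ge (.inr ⟨rfl, hs.2⟩)

theorem prism_ok (hc : CutOK Lm) {R} (hy : y.OK) (ht : t.OK R c) {T₀ : ℝ} (hT : T₀ ≤ T)
    (gj : ∀ q, t.IH.ψ ((y.M.bn y.a).j q) = (S.M.bn t.a).j (g q.1, q.2)) :
    (prism n D hN T μ hg).OK c d T₀ := by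
  have hS := H.cn.ok
  have tp : ∀ i m k, TPs t ((prism n D hN T μ hg).tt i m k) := fun i m k =>
    (tp0 hS _ _).sum (((tpL hS hy ht m).mp _ _).sum (((tpR hS k).mp _ _).sum
      ((tp_D _ _ _ contDiff_swp).sum tp_Z)))
  have tl := fun m => (tp_Z (W₁ := Σ r, Sw S.X.M S.A S.ls (lam ⊕ lam) r n)).sum
    ((tpL hS hy ht m).sum (tp_Z (W₁ := (prism n D hN T μ hg).WR ⊕ Fin n ⊕ yW y)))
  have tr := fun k => (tp_Z (W₁ := Σ r, Sw S.X.M S.A S.ls (lam ⊕ lam) r n)).sum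
    ((tp_Z (W₁ := (prism n D hN T μ hg).WL)).sum ((tpR (t := t) hS k).sum (tp_Z (W₁ := Fin n ⊕ yW y))))
  have u1 : ∀ {σ : Finset S.A} {s}, Pr.Fc σ s → uu s ≠ 0 := fun h => h.2.trans_ne one_ne_zero
  refine ⟨⟨hT, H.T⟩, H.m, fun i _ m k => ⟨H.ok hc (tp i m k), H.locP hc (tp i m k)⟩,
    fun i _ m => ⟨H.ok hc (tl m), H.locP hc (tl m)⟩, fun i _ k => ⟨H.ok hc (tr k), H.locP hc (tr k)⟩,
    fun i σ m k h s hs u => ?_, fun i σ m k h s hs l e w => ⟨H.van (tp i m k w).2.1 (H.dm_cl h hs)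
      l.2 l.2 e, fun l' j => H.van ((tp i m k w).2.2 l') (H.dm_cl h hs) l.2
        ⟨l.2, fun o => j (Subtype.ext o).symm⟩ e⟩,
    fun _ _ _ _ _ _ _ _ _ _ => ⟨⟨rfl, fun _ => rfl⟩, fun _ _ => ⟨rfl, fun _ => rfl⟩⟩,
    fun i m k w s e => trE_ind (P := fun _ g _ g' => g s = 0 ∧ ∀ l, g' l s = 0) ⟨rfl, fun _ => rfl⟩
      (fun _ => ⟨mul_eq_zero_of_left (sub_eq_zero.2 e.symm) _,
        fun _ => mul_eq_zero_of_left (sub_eq_zero.2 e.symm) _⟩) w,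
    tL_sup, fun _ => tR_sup, fun m w _ _ _ _ _ _ _ _ h h' e => tL_loc m (h.2.trans h'.2.symm) e w,
    fun k w _ _ _ _ _ _ _ h h' e => tR_loc k (h.2.trans h'.2.symm) e w,
    fun i σ m s h hs e k π hπ τ a b z => ?_, fun i σ k s h hs e j π hπ => ?_, gj⟩
  · have k1 : ∀ {τ}, (((prism n D hN T μ hg).J c d i m k).put
        (Tr.std S.M (okL S) S.nb (thA t.a))).HasT s τ → ((prism n D hN T μ hg).J c d i m k).HasT s τ :=
      fun ⟨w, a, b, e, _⟩ => let ⟨v, j⟩ := (Has.mul (χ := fun s => 1 - uu s) ⟨w, a, b, e⟩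
        (sub_pos.2 u).ne').ext (.sigmaMk (β := fun r => Sw S.X.M S.A S.ls (lam ⊕ lam) r n) _)
      ⟨.inl v, j.1, j.2.1, j.2.2, nn (by simp [Pr.wN])⟩
    refine ⟨fun a b e => k1 (std_richS a b e), fun π hπ => ?_⟩
    have cf := H.cf (H.dm_cl h hs) hπ
    refine ⟨fun o τ a b e => k1 (std_richT o hπ.toIsReg cf τ a b e), fun l hl τ a => ?_⟩
    obtain ⟨w, a, b, e, f, -⟩ := std_richC (J := (prism n D hN T μ hg).J c d i m k) (ok := okL S)
      hπ.toIsReg cf hl τ a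
    obtain ⟨v, j⟩ := (HasC.mul (t := Tr.std S.M (okL S) S.nb (thA t.a)) (χ := fun s => 1 - uu s)
      ⟨w, a, b, e, f⟩
      (sub_pos.2 u).ne').ext (.sigmaMk (β := fun r => Sw S.X.M S.A S.ls (lam ⊕ lam) r n) _)
    exact ⟨.inl v, j.1, j.2.1, j.2.2.1, j.2.2.2, nn (by simp [Pr.wN])⟩
  · have cf := H.cf (H.dm_cl h hs.1) (k ▸ hπ.1)
    obtain ⟨v, j⟩ := ((hasF (h := S.ls) (.diag (okS_of (a_mem H h hs k) hπ) hπ.1.toIsReg a b
      fun _ => van_of_in a z) cf cf).mul (u1 hs)).ext (.sigmaMk (β := fun m : ℕ =>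
        (Reg S.A × ℕ) × (Reg S.A × ℕ) × Tm S.X.M (lam ⊕ lam) (m + 1) 0) m)
    exact ⟨.inr (.inl v), j.1, j.2.1, j.2.2, nn (by simp [Pr.wN])⟩
  · have cf : ∀ {π}, π ∈ sdP t e true → _ := fun hπ => H.cf (H.dm_cl h hs.1) (j ▸ hπ.1)
    have ok : ∀ {π}, π ∈ sdP t e true → _ := okS_of (a_mem H h hs j)
    have k1 : ∀ {π π' τ}, π ∈ sdP t e true → π' ∈ sdP t e true → VF S.M (okR t) π π' τ →
        ((prism n D hN T μ hg).JR c i k).HasT s τ := fun a b v =>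
      let ⟨w, j⟩ : Has (tR t k) s _ := ((hasF v (cf a) (cf b)).inl.mul (u1 hs)).ext _
      ⟨.inr (.inr (.inl w)), j.1, j.2.1, j.2.2, nn (by simp [Pr.wN])⟩
    have k2 : ∀ {π π' l τ}, π ∈ sdP t e true → π' ∈ sdP t e true →
        VC S.M (okS t true) (okR t) S.nb l π π' τ → ∃ w, ((prism n D hN T μ hg).JR c i k).tc l w = τ ∧
          ((prism n D hN T μ hg).JR c i k).cc l w s ≠ 0 ∧ ((prism n D hN T μ hg).JR c i k).co w s = 0 ∧
          (∀ l', l' ≠ l → ((prism n D hN T μ hg).JR c i k).cc l' w s = 0) ∧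
          ((prism n D hN T μ hg).JR c i k).Nn w s := fun a b v =>
      let ⟨w, j⟩ : HasC (tR t k) s _ _ := ((hasC v (cf a) (cf b)).inr.mul (u1 hs)).ext _
      ⟨.inr (.inr (.inl w)), j.1, j.2.1, j.2.2.1, j.2.2.2, nn (by simp [Pr.wN])⟩
    have p := hπ.1.toIsReg
    refine ⟨fun l hl τ a => k2 hπ hπ ⟨⟨ok hπ, ok hπ⟩, ⟨p, p⟩, hl, xi_mono a subset_union_left, .inl rfl⟩,
      fun o => ⟨fun τ a b z => k1 hπ hπ (.diag ⟨ok hπ, o⟩ p a b fun _ => van_of_in a z),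
        fun π' hπ' o' => ?_⟩⟩
    have p' := hπ'.1.toIsReg
    exact ⟨fun _ a => richP a (ok := okR t) ⟨⟨ok hπ, o⟩, ok hπ', o'⟩ ⟨p, p'⟩
        fun _ v => v.elim (k1 hπ hπ) (k1 hπ hπ'),
      fun _ a _ _ => k1 hπ' hπ' (.diag ⟨ok hπ', o'⟩ p' a trivial fun _ => zero_of a.1.sub),
      fun _ a _ hl _ b => (vc_of a ⟨ok hπ, ok hπ'⟩ ⟨ok hπ', o'⟩ ⟨p, p'⟩ hl b).elim (k2 hπ hπ) (k2 hπ hπ')⟩

theorem prism_cor (m : ℕ) (k : Fin (n + 1)) (C) (i σ) :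
    Cor ((exF S (m - k) n D ∅ μ (-d) C T).job i) (cel σ (some false))
      ((prism n D hN T μ hg).J c d i m k) (cel σ (some false))
      ((Embedding.sigmaMk (β := fun r => Sw S.X.M S.A S.ls (lam ⊕ lam) r n) _).trans .inl) := by
  have T0 : 0 ≤ T := le_trans (by norm_num) H.T.1
  have u : ∀ s ∈ Job.cl (cel σ (some false)), uu s = 0 := fun s hs => hs.1 _ false rfl
  have sw : ∀ s ∈ Job.cl (cel σ (some false)), swp T (uu s) = 0 :=
    fun s hs => swp_le H.T.2 ((u s hs).trans_le T0)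
  have th : ∀ s ∈ Job.cl (cel σ (some false)), thA t.a s = thX S ∅ s := fun s hs =>
    update_eq_self_iff.2 ((congrArg rho (u s hs)).trans ((rho_of_le le_rfl).trans
      (thS_out (notMem_empty _) fun j => not_fz H.cn.ok j H.a).symm))
  have E := trE_of (e := .sigmaMk (β := fun r => Sw S.X.M S.A S.ls (lam ⊕ lam) r n) (m - k + 1 + n))
    (t := (Tr.std S.M (okL S) S.nb (thA t.a)).mul fun s => 1 - uu s)
  have z : ∀ {W W' : Type} {r n' : ℕ} (e : W ↪ W') (τ : TrS S W r n') s, uu s = 0 → ∀ w,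
      (trE e (τ.mul uu)).co w s = 0 ∧ ∀ l, (trE e (τ.mul uu)).cc l w s = 0 := fun e τ s h =>
    trE_ind (P := fun _ g _ g' => g s = 0 ∧ ∀ l, g' l s = 0) ⟨rfl, fun _ => rfl⟩
      fun _ => ⟨mul_eq_zero_of_left h _, fun _ => mul_eq_zero_of_left h _⟩
  refine cor_id (fun s hs => Prod.ext rfl ?_) rfl rfl (fun v => (E v).1) (fun l v => ((E v).2.2 l).1)
    (fun s hs v => ⟨(congrFun (E v).2.1 s).trans ?_, fun l => (congrFun ((E v).2.2 l).2 s).trans ?_⟩)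
    (fun s hs v hv => ?_) (fun _ _ _ => .inr ⟨Ink3.nd0_nil, rfl⟩) fun s hs x => ?_
  · show update _ _ _ = thS _ _ (fun _ _ => max T 0) s
    rw [max_eq_left T0]
    exact update_eq_self_iff.2 ((tpp_le H.T.2 ((u s hs).trans_le T0)).trans (thS_fz (Tf := fun _ _ => T) H.a).symm)
  · show (1 - uu s) * v.co S.M (okL S) (thA t.a s) = _
    rw [u s hs, th s hs, sub_zero, one_mul]; rfl
  · show (1 - uu s) * v.cc S.M S.nb l (thA t.a s) = _
    rw [u s hs, th s hs, sub_zero, one_mul]; rfl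
  · rcases v with v | v | v | v | v
    · have := trE_out (t := (Tr.std S.M (okL S) S.nb (thA t.a)).mul fun s => 1 - uu s)
        fun ⟨w, j⟩ => hv ⟨w, congrArg Sum.inl j⟩
      exact ⟨congrFun this.2.1 s, fun l => congrFun (this.2.2 l).2 s⟩
    exacts [z _ _ s (u s hs) v, z _ _ s (u s hs) v,
      ⟨(ite_congr rfl (fun _ => sw s hs) fun _ => rfl).trans (ite_self _), fun _ => rfl⟩,
      ⟨rfl, fun _ => rfl⟩]
  · by_cases e : x = t.a
    · exact .inl ((if_pos e).trans (sw s hs.1))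
    · refine .inr ?_
      show Ink3.Nil (((prism n D hN T μ hg).xg i).xs x).N ∧ (((prism n D hN T μ hg).xg i).xs x).ty = 0
      rw [Pr.xs_ne _ i e]
      exact ⟨Ink3.nd0_nil, rfl⟩

end ok

/-- **LEAF F-EX** -/
theorem exP (hc : CutOK Lm) : ExP Lm := fun y S t N n D R d c hy hN ht h T hT => by
  obtain ⟨g, hg, gj⟩ := iso_a hy ht
  let μ : S.M.Cl := ⟨↑(S.fz ∪ S.ls), fun a ha b hb e => by
    rcases Finset.mem_union.1 ha with ha | ha <;> rcases Finset.mem_union.1 hb with hb | hb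
    exacts [h.ok.fzc ha hb e, ((h.ok.fz a ha).2.2 b hb).2, ((h.ok.fz b hb).2.2 a ha).2.symm,
      (mL h.ok).2 ha hb e]⟩
  have k : max T (3 / 4) < 1 := max_lt hT (by norm_num)
  have H : Hy (prism n D hN (max T (3 / 4)) μ hg) c d := ⟨h, ht.fz.1, ⟨le_max_right _ _, k⟩, le_rfl⟩
  refine ⟨_, prism_ok H hc hy ht (le_max_left _ _) gj, fun m j => ⟨_, _, (exF_ok (C := fun i => {σ | c i σ ≠ 0})
    h.ok (Finset.disjoint_empty_left _) (fun a ha p => ?_) (fun i σ o => ?_) k hc).mono (le_max_left _ _),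
    rfl, fun i σ o => ⟨σ, o, σ, le_rfl, rfl⟩, fun i σ _ => prism_cor H m j _ i σ⟩⟩
  · exact Finset.mem_union_right _ ((ha.resolve_left p).resolve_right (by simp))
  · exact ⟨(h.cl.mem i σ o).1, h.ns i σ o, hard_of h.cl.toSf o ∅, by simp [(h.cl.mem i σ o).2.1]⟩

end Crest.Agent.X212.Fex7
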