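import Crest.Agent.X212.Fex7.Gd
import Crest.Agent.X212.Ins30.Join

/-!
# X212 / Fex7 (helper7): the jobs of a prism with good terms; the identity correspondence
-/

set_option autoImplicit false
set_option linter.unusedSectionVars false
noncomputable section
open scoped Manifold ContDiff Topology
open Set Function Filter Classical

namespace Crest.Agent.X212.Fex7
open An M G75 Wrd81 Jb7 Nd18 Ins26
open Br55 (CN)
open Line51 (rl)

/-! ### the switch -/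

section sw
variable {T u : ℝ} (h : T < 1)
include h

theorem swp_le (k : u ≤ T) : swp T u = 0 :=
  Real.smoothTransition.zero_of_nonpos (div_nonpos_of_nonpos_of_nonneg (by linarith) (by linarith))

theorem swp_ge (k : (1 + T) / 2 ≤ u) : swp T u = 1 :=
  Real.smoothTransition.one_of_one_le ((one_le_div (by linarith)).2 (by linarith))

theorem tpp_le (k : u ≤ T) : tpp T u = T := by rw [tpp, swp_le h k, zero_mul, add_zero]

theorem tpp_mem : T ≤ tpp T u ∧ tpp T u ≤ max T u := by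
  rcases le_total u T with k | k
  · simp [tpp_le h k]
  · have h0 : 0 ≤ swp T u := Real.smoothTransition.nonneg _
    have h1 : swp T u ≤ 1 := Real.smoothTransition.le_one _
    rw [tpp, max_eq_right k]
    constructor <;> nlinarith

theorem tpp_one (k : u ≤ 1) : tpp T u = 1 ↔ u = 1 :=
  ⟨fun e => k.antisymm ((le_max_iff.1 (e.ge.trans (tpp_mem h).2)).resolve_left h.not_ge),
    fun e => by rw [tpp, swp_ge h (by linarith), e]; ring⟩

omit h in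
theorem contDiff_swp : ContDiff ℝ ∞ (swp T) :=
  Real.smoothTransition.contDiff.comp ((contDiff_id.sub contDiff_const).div_const _)

end sw

variable {κ lam : Type} [Fintype κ] [Fintype lam] [DecidableEq lam]

/-! ### general jobs -/

section gen
variable {Wi Wi' : Type} {X : Mf 4} {A : Type} [Fintype A] {M : Mark X A κ} {W : World M}
  {N : ML M lam} {Λ : Lns W N} {A' h : Type} [Fintype A'] [DecidableEq A'] [Fintype h] {r n : ℕ}
  {J : Job Wi Λ A' h r n} {J' : Job Wi' Λ A' h r n} {σ : Cel A'}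

theorem ag_of (hJ : J.OK) (hσ : σ ∈ J.𝒦) {sh : Set A'} {c : M.Cl} {P : Set (Reg A)}
    {s s' : A' → ℝ} (h1 : J.Ov σ c s) (h2 : J.Ov σ c s') (e : ∀ a ∈ J.lv sh σ c P, s a = s' a) :
    J.Ag sh (⋃ π ∈ P, M.sys.inn π) s s' := fun a ha => by
  rcases hb : σ a with _ | b
  · by_cases hc : ∃ x ∈ c.1, J.hd a = some x
    · obtain ⟨x, h3, h4⟩ := hc
      rw [hJ.eq_one hσ h1 h4 h3, hJ.eq_one hσ h2 h4 h3]
    · refine e a ⟨hb, fun x h3 h4 => hc ⟨x, h4, h3⟩, ha.imp id fun ⟨x, h3, h4⟩ => ?_⟩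
      obtain ⟨π, h5, h6⟩ := mem_iUnion₂.1 h3
      exact ⟨π, h5, x, h6, h4⟩
  · rw [h1.1.1 a b hb, h2.1.1 a b hb]

/-- the identity as a correspondence -/
theorem cor_id {e : Wi ↪ Wi'} (Θ : ∀ s ∈ Job.cl σ, J'.Θ s = J.Θ s) (k : J'.k = J.k)
    (ct : J'.ct = J.ct) (tw : ∀ v, J'.tw (e v) = J.tw v) (tc : ∀ l v, J'.tc l (e v) = J.tc l v)
    (co : ∀ s ∈ Job.cl σ, ∀ v, J'.co (e v) s = J.co v s ∧ ∀ l, J'.cc l (e v) s = J.cc l v s)
    (off : ∀ s ∈ Job.cl σ, ∀ v ∉ range e, J'.co v s = 0 ∧ ∀ l, J'.cc l v s = 0)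
    (nk : NoNk J σ) (nk' : NoNk J' σ) : Cor J σ J' σ e := by
  have q : ∀ x a, trn (rl (N.p x)) (rl (N.p x) a) = trn (rl (N.p x)) a := fun x a => by
    rw [← Line51.rl_ct, (N.ok.prj x trivial).herm, ← ContinuousLinearMap.comp_apply,
      ← Line51.rl_comp, (N.ok.prj x trivial).idem]
  have u : ub J' σ = ub J σ := Set.ext fun s => and_congr_right fun hs => by rw [Θ s hs]
  refine ⟨(MId.refl M).ψ, N.p, id, .refl _, rfl, rfl, (MId.refl M).ori, u ▸ bijOn_id _,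
    fun s hs x => ?_, fun s hs => ⟨(LId.refl N).uni, fun x _ => ?_⟩, k,
    fun l => ct ▸ ⟨subset_univ _, fun _ _ => rfl,
      List.forall₂_same.2 fun _ _ => ⟨fun _ _ => rfl, fun _ _ => rfl, fun _ _ => rfl⟩,
      List.forall₂_same.2 fun _ _ => ⟨fun x _ => (q x _).symm, fun _ _ => rfl, fun _ _ => rfl⟩⟩,
    fun s hs v => ⟨(co s hs.1 v).1, fun _ => tw v ▸ Eqv71.tmR_refl univ q _⟩,
    fun s hs l v => ⟨(co s hs.1 v).2 l, fun _ => ?_⟩, fun s hs => off s hs.1, nk, nk'⟩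
  · rw [id, Θ s hs.1]; exact co_id.2 (.refl _)
  · rw [id, Θ s hs.1]
    exact (congrArg₂ (· + ·) (th_p N x) (congrFun (Dr59.pm_id _) x)).trans (zero_add _)
  · change Cnt93.TcR _ _ _ (J.tc l v) (J'.tc l (e v))
    rw [tc l v]
    refine ⟨rfl, rfl, rfl, ?_⟩
    cases (J.tc l v).ξ
    exacts [.one, .aw (Eqv71.awR_refl _ _), .qj (Eqv71.coR_refl _ q _) (Eqv71.sR_refl _ q _)
      (Eqv71.swR_refl _ _) (Eqv71.swR_refl _ _) (Eqv71.lasR_refl _ _)]

end gen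

variable {Lm : LM κ lam} {S : Scene Lm}

/-! ### parameters -/

/-- the soft coordinate -/
abbrev uu (s : S.A ⊕ Unit → ℝ) : ℝ := s (.inr ())

/-- wall parameters -/
def pv (a : S.A) (fz : Set S.A) (T v : ℝ) (s : S.A ⊕ Unit → ℝ) : S.A → ℝ :=
  update (thS (hard S ∅) fz (fun _ _ => T) s) a v

/-- the wall parameters seen by the terms -/
def thA (a : S.A) (s : S.A ⊕ Unit → ℝ) : S.A → ℝ := pv a ∅ 0 (rho (uu s)) s

/-- points over a cell -/
def Dm (s : S.A ⊕ Unit → ℝ) : Prop := ∃ τ : Finset S.A, S.M.sys.Cell (↑τ ∪ ↑S.fz) ∧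
  (∀ x ∉ τ, s (.inl x) = 0) ∧ (∀ x ∈ hard S ∅, s (.inl x) ≤ 1) ∧ uu s ≤ 1

section par
variable {a x : S.A} {fz : Set S.A} {T v : ℝ} {s s' : S.A ⊕ Unit → ℝ}

theorem pv_a : pv a fz T v s a = v := update_self _ _ _

theorem pv_ne (h : x ≠ a) : pv a fz T v s x = thS (hard S ∅) fz (fun _ _ => T) s x :=
  update_of_ne h _ _

theorem pv_congr (h : x ∈ hard S ∅ → x ≠ a → s (.inl x) = s' (.inl x)) :
    pv a fz T v s x = pv a fz T v s' x := by
  by_cases e : x = a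
  · rw [e, pv_a, pv_a]
  rw [pv_ne e, pv_ne e, thS, thS]
  split_ifs with h1 h2
  exacts [rfl, congrArg rho (h h2 e), rfl]

theorem contDiff_pv {g : ℝ → ℝ} (hg : ContDiff ℝ ∞ g) :
    ContDiff ℝ ∞ fun s => pv a fz T (g (uu s)) s := contDiff_pi.2 fun x => by
  by_cases e : x = a
  · simp only [e, pv_a]; exact hg.comp (contDiff_apply ℝ ℝ (Sum.inr () : S.A ⊕ Unit))
  · simp only [pv_ne e]; exact contDiff_pi.1 (contDiff_thS fun _ => contDiff_const) x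

variable (hS : S.OK) (ha : a ∈ S.fz)
include hS

theorem not_fz (h : x ∈ hard S ∅) : x ∉ S.fz :=
  disjoint_left.1 (hard_dj hS (Finset.disjoint_empty_left _)) h

include ha

theorem pv_H (e : fz ⊆ ↑S.fz) (h : x ∈ hard S ∅) : pv a fz T v s x = rho (s (.inl x)) :=
  (pv_ne fun j : x = a => not_fz hS h (j ▸ ha)).trans (thS_H (fun j => not_fz hS h (e j)) h)

theorem pv_par (e : fz ⊆ ↑S.fz) (hT : T ∈ Ico (0 : ℝ) 1) (hv : v ∈ Icc (0 : ℝ) 1) (hs : Dm s) :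
    pv a fz T v s ∈ S.M.sys.Par ∧
      Sys.inf (pv a fz T v s) = {x | x ∈ hard S ∅ ∧ s (.inl x) = 1 ∨ x = a ∧ v = 1} := by
  obtain ⟨τ, h1, h2, h3, -⟩ := hs
  have key : ∀ x, pv a fz T v s x ∈ Icc (0 : ℝ) 1 ∧ (pv a fz T v s x ≠ 0 → x ∈ (↑τ ∪ ↑S.fz : Set _)) ∧
      (pv a fz T v s x = 1 ↔ x ∈ hard S ∅ ∧ s (.inl x) = 1 ∨ x = a ∧ v = 1) := fun x => by
    by_cases k : x ∈ hard S ∅
    · rw [pv_H hS ha e k, rho_eq_one (h3 x k)]
      refine ⟨rho_mem (h3 x k), fun j => .inl (by_contra fun o => j ?_), ?_⟩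
      · rw [h2 x o]; exact rho_of_le le_rfl
      · exact ⟨fun j => .inl ⟨k, j⟩, fun j => j.elim (·.2) fun j => (not_fz hS k (j.1 ▸ ha)).elim⟩
    by_cases k' : x = a
    · rw [k', pv_a]
      exact ⟨hv, fun _ => .inr ha, fun j => .inr ⟨rfl, j⟩, fun j => j.elim (fun j => (k (k' ▸ j.1)).elim) (·.2)⟩
    have n : ¬(x ∈ hard S ∅ ∧ s (.inl x) = 1 ∨ x = a ∧ v = 1) := fun j => j.elim (k ·.1) (k' ·.1)
    by_cases o : x ∈ fz
    · rw [pv_ne k', thS_fz o]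
      exact ⟨Ico_subset_Icc_self hT, fun _ => .inr (e o), iff_of_false hT.2.ne n⟩
    · rw [pv_ne k', thS_out o k]
      exact ⟨by simp, fun j => (j rfl).elim, iff_of_false zero_ne_one n⟩
  exact ⟨⟨fun x => (key x).1, h1.mono fun x => (key x).2.1⟩, Set.ext fun x => (key x).2.2⟩

theorem th_par (hs : Dm s) : thA a s ∈ S.M.sys.Par ∧
    Sys.inf (thA a s) = {x | x ∈ hard S ∅ ∧ s (.inl x) = 1 ∨ x = a ∧ uu s = 1} := by
  have u := hs.choose_spec.2.2.2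
  rw [← rho_eq_one u]
  exact pv_par hS ha (empty_subset _) (by simp) (rho_mem u) hs

end par

/-! ### the jobs -/

variable {y : G75.YD κ lam} {t : TD y S} {N : ND (yY y).M (lam ⊕ lam)} {n : ℕ} {D : S.Dat}
  {F : Pr t N n D} {c : Cn S.L S.A} {d : ℕ} {i : S.L} {k : ℝ} {r n' : ℕ} {τ : TrS S F.Wi r n'}
  {σ' : Cel (S.A ⊕ Unit)} {s s' : S.A ⊕ Unit → ℝ}

variable (t) in
/-- good families over the scene -/
abbrev TPs {W : Type} (τ : TrS S W r n') : Prop :=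
  TP S.M ↑S.ls Subtype.val S.nb uu (thA t.a) τ

theorem hd_eq {a : S.A ⊕ Unit} {x : S.A} : (F.jb c i k τ).hd a = some x ↔
    x ∈ hard S ∅ ∧ a = .inl x ∨ x = t.a ∧ a = .inr () := by
  rcases a with a | a
  · by_cases e : a ∈ hard S ∅
    · simp only [Sum.elim_inl, if_pos e, Option.some.injEq, Sum.inl.injEq, reduceCtorEq, and_false,
        or_false]
      exact ⟨fun j => ⟨j ▸ e, j⟩, And.right⟩
    · simp only [Sum.elim_inl, if_neg e, Sum.inl.injEq, reduceCtorEq, false_iff, and_false, or_false]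
      exact fun j => e (j.2 ▸ j.1)
  · simp [eq_comm]

theorem ty_x0 {w : F.Wi} (h : w ∉ range F.wN) (x : S.A) : ((F.xg i).xs x).ty w = 0 := by
  by_cases e : x = t.a
  · rw [e, F.xs_a]
    rcases w with w | w | w | w | w
    exacts [rfl, rfl, rfl, rfl, (h ⟨w, rfl⟩).elim]
  · rw [F.xs_ne i e]; rfl

theorem nn {w : F.Wi} (h : w ∉ range F.wN) : (F.jb c i k τ).Nn w s :=
  fun x => (congrArg _ (ty_x0 h x)).trans (smul_zero _)

variable (F c d) in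
/-- the hypotheses -/
structure Hy : Prop where
  cn : CN S d c
  a : t.a ∈ S.fz
  T : 3 / 4 ≤ F.T ∧ F.T < 1
  m : ↑(S.fz ∪ S.ls) ⊆ F.m.1

namespace Hy
variable (H : Hy F c d)
include H

theorem dm (hσ : σ' ∈ cls c i) (hs : s ∈ (F.jb c i k τ).dom σ') : Dm s := by
  obtain ⟨ρ, o, σ, rfl, -, h1, h2⟩ := hσ
  exact ⟨σ, (H.cn.ok.cell i σ (H.cn.cl.mem i σ h1).1).1,
    fun x hx => Ins30.sp_zero hs.1 fun j => hx (h2 j),
    fun x hx => hs.2 _ (by rw [hd_eq.2 (.inl ⟨hx, rfl⟩)]; rfl), hs.2 _ rfl⟩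

theorem dm_cl {σ : Finset S.A} {o} (h : c i σ ≠ 0) (hs : s ∈ Job.cl (cel σ o)) : Dm s :=
  ⟨σ, (H.cn.ok.cell i σ (H.cn.cl.mem i σ h).1).1, fun _ => Ins30.sp_zero hs.1,
    fun _ _ => (hs.2 _).2, (hs.2 _).2⟩

theorem par (hs : Dm s) : (F.Θ s).2 ∈ S.M.sys.Par ∧ Sys.inf (F.Θ s).2 = Sys.inf (thA t.a s) := by
  have u := hs.choose_spec.2.2.2
  have := pv_par (v := tpp F.T (uu s)) H.cn.ok H.a le_rfl ⟨by linarith [H.T.1], H.T.2⟩
    ⟨by linarith [H.T.1, (tpp_mem (u := uu s) H.T.2).1], (tpp_mem H.T.2).2.trans (max_le H.T.2.le u)⟩ hs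
  rw [tpp_one H.T.2 u, ← (th_par H.cn.ok H.a hs).2] at this
  exact this

theorem cf (hs : Dm s) {π : Reg S.A} (h : S.M.sys.Piece (Sys.inf (F.Θ s).2) π) :
    S.M.sys.cf π (thA t.a s) ≠ 0 := piece_cf (th_par H.cn.ok H.a hs).1 ((H.par hs).2 ▸ h)

variable {ls : Set S.A} {In Van : Set S.X.M → Prop} {g : (S.A ⊕ Unit → ℝ) → ℝ}
  (h : Cf S.M uu (thA t.a) ls In Van g)
include h

omit H in
theorem _root_.Crest.Agent.X212.Fex7.Cf.sm : ContDiff ℝ ∞ g := by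
  obtain ⟨f, χ, a, b, e⟩ := h
  rw [funext e]
  exact (b.comp (contDiff_apply ℝ ℝ (Sum.inr () : S.A ⊕ Unit))).mul
    (a.sm.comp (contDiff_pv contDiff_rho))

theorem core (m : ∀ O O', O ⊆ O' → In O → In O') : ∃ V : Set S.A,
    In (S.M.sys.cores ((F.jb c i k τ).hw \ V))ᶜ ∧ ∃ s₀ < (1 : ℝ), ∀ σ ∈ (F.jb c i k τ).𝒦,
      ∀ s ∈ (F.jb c i k τ).dom σ, ∀ a x, (F.jb c i k τ).hd a = some x → x ∈ V → s₀ ≤ s a → g s = 0 := by
  obtain ⟨f, χ, ⟨-, ⟨V, a1, s₀, a2, a3⟩, -, -⟩, -, e⟩ := h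
  refine ⟨V, m _ _ (compl_subset_compl.2 (biUnion_subset_biUnion_left fun x hx => hx.2)) a1,
    max s₀ (1 / 2), max_lt a2 (by norm_num), fun σ hσ s hs a x j hx l => (e s).trans
      (mul_eq_zero_of_right _ (a3 _ (th_par H.cn.ok H.a (H.dm hσ hs)).1 x hx ?_))⟩
  refine ((le_max_left _ _).trans l).trans_eq ((rho_of_ge ((le_max_right _ _).trans l)).symm.trans ?_)
  rcases hd_eq.1 j with ⟨o, rfl⟩ | ⟨rfl, rfl⟩
  exacts [(pv_H H.cn.ok H.a (empty_subset _) o).symm, pv_a.symm]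

theorem van (hs : Dm s) {l : S.A} (h1 : l ∈ S.ls) (h2 : l ∈ ls) (e : s (.inl l) = 1) (j : g s ≠ 0) :
    In ((S.M.sys.w l).sd true) :=
  let ⟨_, _, a, _, b⟩ := h
  a.van _ (th_par H.cn.ok H.a hs).1 l h2 ((pv_H H.cn.ok H.a (empty_subset _) (.inr (.inl h1))).trans
    ((rho_eq_one e.le).2 e)) (right_ne_zero_of_mul (b s ▸ j))

theorem loc (hs : Dm s) (hs' : Dm s') {e : S.M.Cl} (h1 : Sys.inf (F.Θ s).2 = e.1)
    (h2 : Sys.inf (F.Θ s').2 = e.1) {P : Set (Reg S.A)} (hP : ∀ π ∈ P, S.M.sys.Piece e.1 π)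
    (u : uu s = uu s') (j : ∀ π ∈ P, ∀ x ∈ S.M.sys.inn π, x ∈ hard S ∅ → s (.inl x) = s' (.inl x)) :
    g s = g s' ∨ Van (⋃ π ∈ P, S.M.sys.U π) := by
  obtain ⟨f, χ, a, -, b⟩ := h
  have k := (H.par hs).2.symm.trans h1
  refine (a.loc _ (th_par H.cn.ok H.a hs).1 _ (th_par H.cn.ok H.a hs').1
    (((H.par hs').2.symm.trans h2).trans k.symm) P fun π hπ => ⟨k ▸ hP π hπ, fun x hx => ?_⟩).imp_left
    fun o => by rw [b, b, o, u]
  rw [thA, thA, u]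
  exact pv_congr fun o _ => j π hπ x hx o

omit h

theorem ok (hc : CutOK Lm) (h : TPs t τ) : (F.jb c i k τ).OK where
  down := by
    rintro _ ⟨ρ, o, σ, rfl, h1, h2, h3⟩ ⟨a | a, b⟩ hb <;> obtain ⟨j1, j2⟩ := Job.mem_wb.1 hb <;> cases b
    · exact ⟨_, o, σ, fc_inl a, h1, h2, (Finset.erase_subset a ρ).trans h3⟩
    · simpa [show a ∈ hard S ∅ from hard_of H.cn.cl.toSf h2 ∅ (h3 (cel_none.1 j1))] using j2 rfl
    · exact ⟨ρ, _, σ, fc_inr false, by simp, h2, h3⟩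
    · cases j2 rfl
  soft := by
    rintro _ ⟨ρ, o, σ, rfl, h1, -⟩ (a | a) e
    exacts [(cel_ne ρ o a e).elim, (h1 e).elim]
  inj a a' x e e' := by
    rcases hd_eq.1 e with ⟨j, rfl⟩ | ⟨j, rfl⟩ <;> rcases hd_eq.1 e' with ⟨j', rfl⟩ | ⟨j', rfl⟩
    exacts [rfl, (not_fz H.cn.ok j (j' ▸ H.a)).elim, (not_fz H.cn.ok j' (j ▸ H.a)).elim, rfl]
  sm := contDiff_const.prodMk (contDiff_pv (g := tpp F.T)
    (contDiff_const.add (contDiff_swp.mul (contDiff_id.sub contDiff_const))))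
  par σ hσ s hs := (H.par (H.dm hσ hs)).1
  inf σ hσ s hs x e := by
    have := H.dm hσ hs
    rcases ((H.par this).2.trans (th_par H.cn.ok H.a this).2).le e with j | j
    exacts [⟨.inl x, hd_eq.2 (.inl ⟨j.1, rfl⟩), j.2⟩, ⟨.inr (), hd_eq.2 (.inr ⟨j.1, rfl⟩), j.2⟩]
  lin := ⟨max (7 / 8) ((1 + F.T) / 2), max_lt (by norm_num) (by linarith [H.T.2]), fun a x j' s l => by
    rw [max_le_iff] at l
    rcases hd_eq.1 j' with ⟨j, rfl⟩ | ⟨rfl, rfl⟩
    · have : (F.Θ s).2 x = s (.inl x) :=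
        (pv_H H.cn.ok H.a le_rfl j).trans (rho_of_ge (by linarith [l.1]))
      refine ⟨this, fun p => (if_neg fun e : x = t.a => not_fz H.cn.ok j (e ▸ H.a)).trans
        ((if_pos (H.m ?_)).trans (swc_of_ge (this ▸ l.1)))⟩
      simpa [hard, p] using Or.inr (a := x ∈ S.fz) ((j.resolve_left p).resolve_right (by simp))
    · refine ⟨pv_a.trans ?_, fun _ => (if_pos rfl).trans (swp_ge H.T.2 l.2)⟩
      rw [tpp, swp_ge H.T.2 l.2]; ring⟩
  mem a x j p := H.m <| by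
    rcases hd_eq.1 j with ⟨j, -⟩ | ⟨rfl, -⟩
    · simpa using Or.inr (a := x ∈ S.fz) ((j.resolve_left p).resolve_right (by simp))
    · simp [H.a]
  tw w := H.core (h w).2.1 fun _ _ e j => j.mono e
  co w := (h w).2.1.sm
  nb l := ⟨(H.cn.ok.nb_ok l hc i).1, (H.cn.ok.nb_ok l hc i).2.1⟩
  dj := H.cn.ok.nb_dj
  ct σ hσ s hs c e l j := H.cn.ok.ct_ok l hc i _ _ c (H.par (H.dm hσ hs)).1 e j
  tc l w := H.core ((h w).2.2 l) fun _ _ e j => xi_mono j e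
  cc l w := ((h w).2.2 l).sm
  xs := (F.xg i).ok
  iso := (F.xg i).iso
  ν x := by
    by_cases e : x = t.a
    · simp only [if_pos e]
      exact contDiff_swp.comp (contDiff_apply ℝ ℝ (Sum.inr () : S.A ⊕ Unit))
    by_cases e' : x ∈ F.m.1
    · simp only [if_neg e, if_pos e', show ∀ s, (F.Θ s).2 x = _ from fun _ => pv_ne e]
      exact contDiff_swc.comp (contDiff_pi.1 (contDiff_thS fun _ => contDiff_const) x)
    · simp only [if_neg e, if_neg e']; exact contDiff_const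
  ν0 x s j := by
    by_cases e : x = t.a
    · subst e
      exact ⟨H.m (by simp [H.a]), (H.T.1.trans (tpp_mem H.T.2).1).trans_eq pv_a.symm⟩
    by_cases e' : x ∈ F.m.1
    · exact ⟨e', le_of_not_ge fun o => j ((if_neg e).trans ((if_pos e').trans (swc_of_le o)))⟩
    · exact (j ((if_neg e).trans (if_neg e'))).elim
  nk := (F.xg i).isNk _ _

theorem locP (hc : CutOK Lm) (h : TPs t τ) : LocP (F.jb c i k τ) (shS S) where
  pok σ hσ e P P' L hP h' := ⟨hP, h', fun _ j => ⟨j.1, j.2.1⟩, fun _ j => j.2, fun s s' h1 h2 j => by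
    have a := ag_of (H.ok hc h) hσ h1 h2 j
    have u : uu s = uu s' := a _ (.inl fun _ _ => Sum.inr_ne_inl)
    have b : ∀ π ∈ P, ∀ x ∈ S.M.sys.inn π, x ∈ hard S ∅ → s (.inl x) = s' (.inl x) :=
      fun π hπ x hx o => a _ (.inr ⟨x, mem_biUnion hπ hx, hd_eq.2 (.inl ⟨o, rfl⟩)⟩)
    have d := H.dm hσ h1.1
    have d' := H.dm hσ h2.1
    refine ⟨rfl, fun π hπ x hx => ?_, fun w => H.loc (h w).2.1 d d' h1.2 h2.2 hP u b, fun l hl w =>
      (H.loc ((h w).2.2 l) d d' h1.2 h2.2 hP u b).imp_right (· hl.2)⟩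
    have : (F.Θ s).2 x = (F.Θ s').2 x := by
      show pv _ _ _ (tpp _ (uu s)) s x = pv _ _ _ (tpp _ (uu s')) s' x
      rw [u]; exact pv_congr fun o _ => b π hπ x hx o
    exact ⟨this, by simp only [this, show s (.inr ()) = _ from u]⟩⟩
  bas w := (h w).1
  nb l := (H.cn.ok.nb_ok l hc i).2.2

end Hy

end Crest.Agent.X212.Fex7
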