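import Crest.Agent.X212.Nd18.Fct
import Crest.Agent.X212.Jb7.Ex

/-!
# X212 / Fex7 (helper7): good coefficients; families of terms with data in two regions
-/

set_option autoImplicit false
set_option linter.unusedSectionVars false
noncomputable section
open scoped Manifold ContDiff Topology
open Set Function Filter Classical

namespace Crest.Agent.X212.Fex7
open An M Wrd81 Jb7 Nd18

section gd
variable {X : Type} [TopologicalSpace X] {A : Type} [Fintype A] (S : Sys X A)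
  (ls : Set A) (In Van : Set X → Prop) (f : (A → ℝ) → ℝ)

/-- the coefficient `f` of a term with the support predicate `In` -/
structure Gd : Prop where
  sm : ContDiff ℝ ∞ f
  core : ∃ V : Set A, In (S.cores Vᶜ)ᶜ ∧ ∃ s₀ < (1 : ℝ), ∀ p ∈ S.Par, ∀ x ∈ V, s₀ ≤ p x → f p = 0
  loc : ∀ p ∈ S.Par, ∀ p' ∈ S.Par, Sys.inf p' = Sys.inf p → ∀ P : Set (Reg A),
    (∀ π ∈ P, S.Piece (Sys.inf p) π ∧ ∀ x ∈ S.inn π, p x = p' x) → f p = f p' ∨ Van (⋃ π ∈ P, S.U π)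
  van : ∀ p ∈ S.Par, ∀ l ∈ ls, p l = 1 → f p ≠ 0 → In ((S.w l).sd true)

/-- active regions lie outside the broken walls of `ls` -/
def Out (ρ : Reg A) : Prop := ∀ p ∈ S.Par, ∀ l ∈ ls, p l = 1 → S.cf ρ p ≠ 0 → S.U ρ ⊆ (S.w l).sd true

/-- the coefficient of two regions -/
def cg2 (a b : Reg A × ℕ) (p : A → ℝ) : ℝ := cg S a.1 a.2 p * cg S b.1 b.2 p

variable {S ls In Van f} {In' Van' : Set X → Prop}

theorem Gd.mono (h : Gd S ls In Van f) (k : ∀ O, In O → In' O) (k' : ∀ O, Van O → Van' O) :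
    Gd S ls In' Van' f :=
  ⟨h.sm, h.core.imp fun _ c => ⟨k _ c.1, c.2⟩,
    fun p a p' b e P d => (h.loc p a p' b e P d).imp_right (k' _),
    fun p a l b c d => k _ (h.van p a l b c d)⟩

theorem Gd.const (h : ∀ O, In O) (c : ℝ) : Gd S ls In Van fun _ => c :=
  ⟨contDiff_const, ⟨∅, h _, 0, one_pos, fun _ _ _ j => j.elim⟩, fun _ _ _ _ _ _ _ => .inl rfl,
    fun _ _ _ _ _ _ => h _⟩

theorem Gd.of [PreconnectedSpace X] {ρ ρ' : Reg A} {k k' : ℕ} (h : S.IsReg ρ) (h' : S.IsReg ρ')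
    (o : Out S ls ρ) (o' : Out S ls ρ') (hI : ∀ O, S.U ρ ∪ S.U ρ' ⊆ O → In O)
    (hV : ∀ O, Disjoint (S.U ρ) O ∨ Disjoint (S.U ρ') O → Van O) (sm : ContDiff ℝ ∞ f)
    (h0 : ∀ p, f p ≠ 0 → cg S ρ k p ≠ 0 ∧ cg S ρ' k' p ≠ 0)
    (hc : ∀ p p', cg S ρ k p = cg S ρ k p' → cg S ρ' k' p = cg S ρ' k' p' → f p = f p') :
    Gd S ls In Van f := by
  obtain ⟨V, a1, s₀, a2, a3⟩ := cg_core h k univ
  obtain ⟨V', b1, s₁, b2, b3⟩ := cg_core h' k' univ
  have m : ∀ {V V' : Set A}, V ⊆ V' → (S.cores (univ \ V))ᶜ ⊆ (S.cores V'ᶜ)ᶜ := fun e =>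
    compl_subset_compl.2 (biUnion_subset_biUnion_left fun x hx => ⟨trivial, fun j => hx (e j)⟩)
  refine ⟨sm, ⟨V ∪ V', hI _ (union_subset (a1.trans (m subset_union_left))
    (b1.trans (m subset_union_right))), max s₀ s₁, max_lt a2 b2, fun p hp x hx l => by_contra fun c =>
      hx.elim (fun j => (h0 p c).1 (a3 p hp x j ((le_max_left _ _).trans l)))
        fun j => (h0 p c).2 (b3 p hp x j ((le_max_right _ _).trans l))⟩,
    fun p hp p' hp' e P hP => or_iff_not_imp_right.2 fun n => ?_, fun p hp l hl e c => hI _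
      (union_subset (o p hp l hl e (cg_ne_zero.1 (h0 p c).1).1)
        (o' p hp l hl e (cg_ne_zero.1 (h0 p c).2).1))⟩
  have key : ∀ {ρ} k, S.IsReg ρ → ¬Disjoint (S.U ρ) (⋃ π ∈ P, S.U π) → cg S ρ k p = cg S ρ k p' :=
    fun k hρ d => by
      obtain ⟨x, h1, h2⟩ := not_disjoint_iff.1 d
      obtain ⟨π, h3, h2⟩ := mem_iUnion₂.1 h2
      exact cg_loc hρ hp hp' e (hP π h3).1 (hP π h3).2 h1 h2
  exact hc p p' (key k h fun d => n (hV _ (.inl d))) (key k' h' fun d => n (hV _ (.inr d)))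

theorem Gd.one [PreconnectedSpace X] {ρ : Reg A} (k : ℕ) (h : S.IsReg ρ) (o : Out S ls ρ)
    (hI : ∀ O, S.U ρ ⊆ O → In O) (hV : ∀ O, Disjoint (S.U ρ) O → Van O) :
    Gd S ls In Van (cg S ρ k) :=
  .of h h o o (fun O e => hI O (subset_union_left.trans e)) (fun O e => hV O (e.elim id id))
    (contDiff_cg S ρ k) (fun _ c => ⟨c, c⟩) fun _ _ e _ => e

theorem Gd.two [PreconnectedSpace X] {a b : Reg A × ℕ} (h : S.IsReg a.1) (h' : S.IsReg b.1)
    (o : Out S ls a.1) (o' : Out S ls b.1) (hI : ∀ O, S.U a.1 ∪ S.U b.1 ⊆ O → In O)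
    (hV : ∀ O, Disjoint (S.U a.1) O ∨ Disjoint (S.U b.1) O → Van O) : Gd S ls In Van (cg2 S a b) :=
  .of h h' o o' hI hV ((contDiff_cg S _ _).mul (contDiff_cg S _ _)) (fun _ => mul_ne_zero_iff.1)
    fun _ _ => congrArg₂ (· * ·)

theorem exists_cg2 {ρ ρ' : Reg A} {p : A → ℝ} (h : S.cf ρ p ≠ 0) (h' : S.cf ρ' p ≠ 0) :
    ∃ k k', cg2 S (ρ, k) (ρ', k') p ≠ 0 :=
  let ⟨k, a⟩ := exists_cg h; let ⟨k', b⟩ := exists_cg h'; ⟨k, k', mul_ne_zero a b⟩

/-- a region that contains a point outside the walls of `ls` -/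
theorem out_of_mem [PreconnectedSpace X] {ρ : Reg A} (h : S.IsReg ρ) {x : X} (hx : x ∈ S.U ρ)
    (k : ∀ l ∈ ls, x ∈ (S.w l).sd true) : Out S ls ρ := fun _ hp l hl e c =>
  let ⟨_, s⟩ := side_ex h hp c e; (S.w l).sd_inj (s hx) (k l hl) ▸ s

end gd

variable {Wi W₁ W₂ : Type} {X : Mf 4} {A κ lam : Type} [Fintype A] [Fintype κ] [Fintype lam]
  [DecidableEq lam] {M : Mark X A κ} {h A' A'' : Type} {r r' n n' : ℕ}

/-! ### renaming -/

section mp
variable (f : Fin r → Fin r') (g : Fin n → Fin n') {Ω : Set X.M}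

theorem coIn_mp {d : Co X.M lam r} (h : CoIn X.I Ω d) : CoIn X.I Ω (d.mp f) := by
  cases d
  exacts [trivial, h]

theorem coVan_mp {d : Co X.M lam r} (h : d.Van Ω) : (d.mp f).Van Ω := by
  cases d
  exacts [h, h]

theorem tmIn_mp {τ : Tm X.M lam r n} (h : TmIn X.I Ω τ) : TmIn X.I Ω (τ.mp f g) := by
  cases τ
  exacts [h, ⟨coIn_mp f h.1, h.2⟩, h, ⟨coIn_mp f h.1, h.2⟩, h, h, trivial]

theorem van_mp {τ : Tm X.M lam r n} (h : τ.Van Ω) : (τ.mp f g).Van Ω := by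
  cases τ
  exacts [h, h.imp_right (coVan_mp f), h, h.imp_right (coVan_mp f), h, h, h]

theorem bas_mp {τ : Tm X.M lam r n} (h : Bas τ) : Bas (τ.mp f g) := by
  cases τ
  exacts [h, h, h, h, h, h, h]

theorem xiIn_mp {ξ : Xi X.M lam r} (h : XiIn X.I Ω ξ) : XiIn X.I Ω (ξ.mp f) := by
  cases ξ
  exacts [h, h, ⟨coIn_mp f h.1, h.2⟩]

theorem xiVan_mp {ξ : Xi X.M lam r} (h : ξ.Van Ω) : (ξ.mp f).Van Ω := by
  cases ξ
  exacts [h, h, coVan_mp f h]

end mp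

/-! ### families -/

/-- more indices -/
def trE (e : W₁ ↪ W₂) (t : Tr W₁ X.M lam h A' r n) : Tr W₂ X.M lam h A' r n :=
  ⟨extend e t.tw fun _ => z0, extend e t.co 0, fun i => extend e (t.tc i) fun _ => c0,
    fun i => extend e (t.cc i) 0⟩

section E
variable {e : W₁ ↪ W₂} {t : Tr W₁ X.M lam h A' r n}

theorem trE_of (w : W₁) : (trE e t).tw (e w) = t.tw w ∧ (trE e t).co (e w) = t.co w ∧
    ∀ i, (trE e t).tc i (e w) = t.tc i w ∧ (trE e t).cc i (e w) = t.cc i w :=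
  by simp only [trE, e.injective.extend_apply, and_self, implies_true]

theorem trE_out {w : W₂} (k : w ∉ range e) : (trE e t).tw w = z0 ∧ (trE e t).co w = 0 ∧
    ∀ i, (trE e t).tc i w = c0 ∧ (trE e t).cc i w = 0 :=
  by simp only [trE, fun {V : Type} (a : W₁ → V) b => extend_apply' a b w k, and_self, implies_true,
    Pi.zero_apply]

/-- a property of all indices of `t` and of the zero term -/
theorem trE_ind {P : Tm X.M lam r n → ((A' → ℝ) → ℝ) → (h → Tc X.M lam r) →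
      (h → (A' → ℝ) → ℝ) → Prop} (h0 : P z0 0 (fun _ => c0) 0)
    (h1 : ∀ w, P (t.tw w) (t.co w) (t.tc · w) (t.cc · w)) (w : W₂) :
    P ((trE e t).tw w) ((trE e t).co w) ((trE e t).tc · w) ((trE e t).cc · w) := by
  by_cases k : w ∈ range e
  · obtain ⟨v, rfl⟩ := k
    have := trE_of (e := e) (t := t) v
    simp only [this.1, this.2.1, fun i => (this.2.2 i).1, fun i => (this.2.2 i).2]
    exact h1 v
  · have := trE_out (t := t) k
    simp only [this.1, this.2.1, fun i => (this.2.2 i).1, fun i => (this.2.2 i).2]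
    exact h0

end E

section fam
variable (M) (sd ok : Reg A → Prop) (nb : h → Set X.M)

/-- field terms and rows with data in two regions -/
structure VF (ρ ρ' : Reg A) (τ : Tm X.M lam r n) : Prop where
  ok : ok ρ ∧ ok ρ'
  reg : M.sys.IsReg ρ ∧ M.sys.IsReg ρ'
  tm : TmIn X.I (M.sys.U ρ ∪ M.sys.U ρ') τ
  bas : Bas τ
  van : ∀ O, Disjoint (M.sys.U ρ) O ∨ Disjoint (M.sys.U ρ') O → τ.Van O

/-- terms of a cut with data in two regions -/
structure VC (i : h) (ρ ρ' : Reg A) (T : Tc X.M lam r) : Prop where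
  sd : sd ρ ∧ sd ρ'
  reg : M.sys.IsReg ρ ∧ M.sys.IsReg ρ'
  nb : nb i ⊆ M.sys.U ρ
  xi : XiIn X.I (M.sys.U ρ ∪ M.sys.U ρ') T.ξ
  van : ρ' = ρ ∨ ok ρ' ∧ ∀ O, Disjoint (M.sys.U ρ') O → T.ξ.Van O

variable (th : (A' → ℝ) → A → ℝ)

/-- all field terms -/
def tF : Tr ((Reg A × ℕ) × (Reg A × ℕ) × Tm X.M lam r n) X.M lam h A' r n :=
  ⟨fun w => if VF M ok w.1.1 w.2.1.1 w.2.2 then w.2.2 else z0,
    fun w s => if VF M ok w.1.1 w.2.1.1 w.2.2 then cg2 M.sys w.1 w.2.1 (th s) else 0,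
    fun _ _ => c0, 0⟩

/-- all terms of cuts -/
def tC : Tr ((Reg A × ℕ) × (Reg A × ℕ) × h × Tc X.M lam r) X.M lam h A' r n :=
  ⟨fun _ => z0, 0,
    fun i w => if w.2.2.1 = i ∧ VC M sd ok nb i w.1.1 w.2.1.1 w.2.2.2 then w.2.2.2 else c0,
    fun i w s => if w.2.2.1 = i ∧ VC M sd ok nb i w.1.1 w.2.1.1 w.2.2.2
      then cg2 M.sys w.1 w.2.1 (th s) else 0⟩

end fam

/-! ### presence of terms -/

section has
variable (t : Tr W₁ X.M lam h A' r n) (s : A' → ℝ)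

/-- the field term `τ` is present -/
def Has (τ : Tm X.M lam r n) : Prop := ∃ w, t.tw w = τ ∧ t.co w s ≠ 0 ∧ ∀ i, t.cc i w s = 0

/-- the term `T` of the cut `i` is present -/
def HasC (i : h) (T : Tc X.M lam r) : Prop :=
  ∃ w, t.tc i w = T ∧ t.cc i w s ≠ 0 ∧ t.co w s = 0 ∧ ∀ i', i' ≠ i → t.cc i' w s = 0

variable {t s} {τ : Tm X.M lam r n} {i : h} {T : Tc X.M lam r} {χ : (A' → ℝ) → ℝ}
  {t' : Tr W₂ X.M lam h A' r n}

theorem Has.ext (k : Has t s τ) (e : W₁ ↪ W₂) : Has (trE e t) s τ :=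
  let ⟨w, a, b, c⟩ := k; let j := trE_of (e := e) (t := t) w
  ⟨e w, j.1.trans a, j.2.1 ▸ b, fun i => (j.2.2 i).2 ▸ c i⟩

theorem HasC.ext (k : HasC t s i T) (e : W₁ ↪ W₂) : HasC (trE e t) s i T :=
  let ⟨w, a, b, c, d⟩ := k; let j := trE_of (e := e) (t := t) w
  ⟨e w, (j.2.2 i).1.trans a, (j.2.2 i).2 ▸ b, j.2.1 ▸ c, fun i o => (j.2.2 i).2 ▸ d i o⟩

theorem Has.mul (k : Has t s τ) (e : χ s ≠ 0) : Has (t.mul χ) s τ :=
  let ⟨w, a, b, c⟩ := k; ⟨w, a, mul_ne_zero e b, fun i => mul_eq_zero_of_right _ (c i)⟩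

theorem HasC.mul (k : HasC t s i T) (e : χ s ≠ 0) : HasC (t.mul χ) s i T :=
  let ⟨w, a, b, c, d⟩ := k
  ⟨w, a, mul_ne_zero e b, mul_eq_zero_of_right _ c, fun i o => mul_eq_zero_of_right _ (d i o)⟩

theorem Has.inl (k : Has t s τ) : Has (t.sum t') s τ := let ⟨w, a⟩ := k; ⟨.inl w, a⟩

theorem HasC.inr (k : HasC t' s i T) : HasC (t.sum t') s i T := let ⟨w, a⟩ := k; ⟨.inr w, a⟩

variable {sd ok : Reg A → Prop} {nb : h → Set X.M} {th : (A' → ℝ) → A → ℝ} {π π' : Reg A}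

theorem hasF (v : VF M ok π π' τ) (c : M.sys.cf π (th s) ≠ 0) (c' : M.sys.cf π' (th s) ≠ 0) :
    Has (h := h) (tF M ok th) s τ :=
  let ⟨k, k', j⟩ := exists_cg2 c c'
  ⟨((π, k), (π', k'), τ), if_pos v, (if_pos v).trans_ne j, fun _ => rfl⟩

theorem hasC (v : VC M sd ok nb i π π' T) (c : M.sys.cf π (th s) ≠ 0) (c' : M.sys.cf π' (th s) ≠ 0) :
    HasC (n := n) (tC M sd ok nb th) s i T :=
  let ⟨k, k', j⟩ := exists_cg2 c c'
  ⟨((π, k), (π', k'), i, T), if_pos ⟨rfl, v⟩, (if_pos ⟨rfl, v⟩).trans_ne j, rfl,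
    fun _ o => if_neg fun e => o e.1.symm⟩

theorem zero_of {V : Type} [Zero V] {f : X.M → V} {Ω O : Set X.M} (e : tsupport f ⊆ Ω)
    (d : Disjoint Ω O) : ∀ x ∈ O, f x = 0 :=
  fun _ hx => image_eq_zero_of_notMem_tsupport fun j => disjoint_left.1 d (e j) hx

theorem VF.diag (o : ok π) (p : M.sys.IsReg π) (h1 : TmIn X.I (M.sys.U π) τ) (h2 : Bas τ)
    (h3 : ∀ O, Disjoint (M.sys.U π) O → τ.Van O) : VF M ok π π τ :=
  ⟨⟨o, o⟩, ⟨p, p⟩, h1.mono subset_union_left, h2, fun O d => h3 O (d.elim id id)⟩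

variable {g : Sg X.M lam} (hg : SgIn X.I (M.sys.U π') g)
include hg

theorem coIn_s : CoIn X.I (M.sys.U π ∪ M.sys.U π') (.s g [] : Co X.M lam r) :=
  ⟨hg.mono subset_union_right, fun _ j => nomatch j⟩

/-- all field terms in `π` whose coefficient is a density in `π'` -/
theorem richP (o : ok π ∧ ok π') (p : M.sys.IsReg π ∧ M.sys.IsReg π') {Av : Tm X.M lam r n → Prop}
    (H : ∀ τ, VF M ok π π τ ∨ VF M ok π π' τ → Av τ) : RichP X.I (M.sys.U π) (.s g []) Av :=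
  have m : M.sys.U π ⊆ M.sys.U π ∪ M.sys.U π' := subset_union_left
  { lin := fun f u a b =>
      have k : TmIn X.I _ (.lin (.mul f :: u) : Tm X.M lam r n) := ⟨b.cons (t := .mul f) a, _, _, rfl⟩
      H _ (.inl (.diag o.1 p.1 k trivial fun _ => van_of_in k trivial))
    anti := fun _ _ a b => H _ (.inr ⟨o, p, ⟨coIn_s hg, a.mono m, b.mono m⟩, trivial,
      fun _ d => d.imp (zero_of a.sub) (zero_of hg.1.sub)⟩)
    ad := fun _ _ _ _ _ a b c => H _ (.inl (.diag o.1 p.1 ⟨a, b, c⟩ ⟨_, _, rfl⟩ fun _ => zero_of a.sub))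
    adj := fun _ _ _ _ _ a b c d e => H _ (.inr ⟨o, p, ⟨coIn_s hg, a.mono m, b.mono m, c.mono m,
      d.mono m, e.mono m, llIn_nil⟩, trivial, fun _ d => d.imp (zero_of b.sub) (zero_of hg.1.sub)⟩) }

theorem vc_of (o : sd π ∧ sd π') (o' : ok π') (p : M.sys.IsReg π ∧ M.sys.IsReg π')
    (hi : nb i ⊆ M.sys.U π) (hT : XiX (M.sys.U π) (.s g []) T.ξ) :
    VC M sd ok nb i π π T ∨ VC M sd ok nb i π π' T := by
  have m : M.sys.U π ⊆ M.sys.U π ∪ M.sys.U π' := subset_union_left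
  rcases T with ⟨a, b, w, _ | ξ | ⟨d, s, u, v, l⟩⟩
  · exact .inl ⟨⟨o.1, o.1⟩, ⟨p.1, p.1⟩, hi, trivial, .inl rfl⟩
  · exact .inl ⟨⟨o.1, o.1⟩, ⟨p.1, p.1⟩, hi, xi_mono (ξ := .aw ξ) hT subset_union_left, .inl rfl⟩
  · obtain ⟨rfl, h1, h2, h3, h4⟩ := hT
    exact .inr ⟨o, p, hi, ⟨coIn_s hg, h1.mono m, h2.mono m, h3.mono m, h4.mono m⟩,
      .inr ⟨o', fun _ => zero_of hg.1.sub⟩⟩

end has

/-! ### good families -/

section tp
variable [Fintype A'] (M) (ls : Set A) (wl : h → A) (nb : h → Set X.M) (u : (A' → ℝ) → ℝ)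
  (th : (A' → ℝ) → A → ℝ)

/-- `g` is a good coefficient times a function of `u` -/
def Cf (ls : Set A) (In Van : Set X.M → Prop) (g : (A' → ℝ) → ℝ) : Prop :=
  ∃ f χ, Gd M.sys ls In Van f ∧ ContDiff ℝ ∞ χ ∧ ∀ s, g s = χ (u s) * f (th s)

/-- one index -/
def Ix (τ : Tm X.M lam r n) (g : (A' → ℝ) → ℝ) (T : h → Tc X.M lam r) (g' : h → (A' → ℝ) → ℝ) :
    Prop := Bas τ ∧ Cf M u th ls (TmIn X.I · τ) τ.Van g ∧
  ∀ i, Cf M u th (ls \ {wl i}) (XiIn X.I · (T i).ξ) (fun O => nb i ⊆ O → (T i).ξ.Van O) (g' i)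

/-- **good families** -/
def TP (t : Tr W₁ X.M lam h A' r n) : Prop :=
  ∀ w, Ix M ls wl nb u th (t.tw w) (t.co w) (t.tc · w) (t.cc · w)

variable {M ls wl nb u th} {In Van In' Van' : Set X.M → Prop} {g : (A' → ℝ) → ℝ} {χ : ℝ → ℝ}
  {t : Tr W₁ X.M lam h A' r n} {t' : Tr W₂ X.M lam h A' r n}

theorem Cf.of {f} (k : Gd M.sys ls In Van f) (e : ∀ s, g s = f (th s)) : Cf M u th ls In Van g :=
  ⟨f, 1, k, contDiff_const, fun s => (e s).trans (one_mul _).symm⟩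

theorem Cf.zero (k : ∀ O, In O) : Cf M u th ls In Van 0 := .of (.const k 0) fun _ => rfl

theorem Cf.mul (k : Cf M u th ls In Van g) (e : ContDiff ℝ ∞ χ) :
    Cf M u th ls In Van fun s => χ (u s) * g s :=
  let ⟨f, χ', a, b, c⟩ := k
  ⟨f, χ * χ', a, e.mul b, fun s => (congrArg _ (c s)).trans (mul_assoc _ _ _).symm⟩

theorem Cf.mono (k : Cf M u th ls In Van g) (a : ∀ O, In O → In' O) (b : ∀ O, Van O → Van' O) :
    Cf M u th ls In' Van' g := k.imp fun _ => .imp fun _ c => ⟨c.1.mono a b, c.2⟩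

theorem ix_zero : Ix M ls wl nb u th (z0 : Tm X.M lam r n) 0 (fun _ => c0) 0 :=
  ⟨trivial, .zero z0_in, fun _ => .zero fun _ => trivial⟩

theorem tp_Z : TP M ls wl nb u th (trZ W₁ : Tr W₁ X.M lam h A' r n) := fun _ => ix_zero

theorem TP.sum (k : TP M ls wl nb u th t) (k' : TP M ls wl nb u th t') :
    TP M ls wl nb u th (t.sum t') := Sum.rec k k'

theorem TP.ext (k : TP M ls wl nb u th t) (e : W₁ ↪ W₂) : TP M ls wl nb u th (trE e t) :=
  trE_ind ix_zero k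

theorem TP.mul (k : TP M ls wl nb u th t) (e : ContDiff ℝ ∞ χ) :
    TP M ls wl nb u th (t.mul fun s => χ (u s)) :=
  fun w => ⟨(k w).1, (k w).2.1.mul e, fun i => ((k w).2.2 i).mul e⟩

theorem TP.mp (k : TP M ls wl nb u th t) (f : Fin r → Fin r') (g : Fin n → Fin n') :
    TP M ls wl nb u th (trM f g t) := fun w =>
  ⟨bas_mp f g (k w).1, (k w).2.1.mono (fun _ => tmIn_mp f g) fun _ => van_mp f g,
    fun i => ((k w).2.2 i).mono (fun _ => xiIn_mp f) fun _ a b => xiVan_mp f (a b)⟩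

theorem tp_D (j n k : ℕ) (e : ContDiff ℝ ∞ χ) :
    TP M ls wl nb u th (trD j n k fun s => χ (u s) : Tr _ X.M lam h A' _ n) := fun ρ => by
  refine ⟨trivial, ?_, fun _ => .zero fun _ => trivial⟩
  by_cases o : k ≤ ρ
  · exact ⟨_, χ, .const (fun _ => trivial) 1, e, fun s => (if_pos o).trans (mul_one _).symm⟩
  · exact .of (.const (fun _ => trivial) 0) fun s => if_neg o

variable {sd ok : Reg A → Prop} (ho : ∀ ρ, ok ρ → M.sys.IsReg ρ → Out M.sys ls ρ)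
include ho

theorem tp_F : TP M ls wl nb u th (tF M ok th : Tr _ X.M lam h A' r n) := fun w => by
  have := M.con
  by_cases v : VF M ok w.1.1 w.2.1.1 w.2.2
  · have e : (tF (h := h) M ok th).tw w = w.2.2 := if_pos v
    exact ⟨e ▸ v.bas, .of (.two v.reg.1 v.reg.2 (ho _ v.ok.1 v.reg.1) (ho _ v.ok.2 v.reg.2)
      (fun _ j => e ▸ v.tm.mono j) (e ▸ v.van)) fun _ => if_pos v, fun _ => .zero fun _ => trivial⟩
  · have e : (tF (h := h) M ok th).tw w = z0 := if_neg v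
    exact ⟨e ▸ trivial, .of (.const (e ▸ z0_in) 0) fun _ => if_neg v, fun _ => .zero fun _ => trivial⟩

variable (hn : ∀ i, ∃ x ∈ nb i, ∀ l ∈ ls \ {wl i}, x ∈ (M.sys.w l).sd true)
include hn

theorem tp_C : TP M ls wl nb u th (tC M sd ok nb th : Tr _ X.M lam h A' r n) := fun w => by
  have := M.con
  refine ⟨trivial, .zero z0_in, fun i => ?_⟩
  by_cases v : w.2.2.1 = i ∧ VC M sd ok nb i w.1.1 w.2.1.1 w.2.2.2
  · have e : (tC (n := n) M sd ok nb th).tc i w = w.2.2.2 := if_pos v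
    obtain ⟨x, h1, h2⟩ := hn i
    have o := out_of_mem v.2.reg.1 (v.2.nb h1) h2
    have d : ∀ O, Disjoint (M.sys.U w.1.1) O → ¬nb i ⊆ O :=
      fun O d j => disjoint_left.1 d (v.2.nb h1) (j h1)
    refine .of (.two v.2.reg.1 v.2.reg.2 o (v.2.van.elim (· ▸ o) fun j p a l b =>
      ho _ j.1 v.2.reg.2 p a l b.1) (fun _ j => ?_) fun O j k => ?_) fun _ => if_pos v
    · simp only [e]; exact xi_mono v.2.xi j
    · simp only [e]
      exact j.elim (fun j => (d O j k).elim) fun j =>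
        v.2.van.elim (fun a => (d O (a ▸ j) k).elim) fun a => a.2 O j
  · have e : (tC (n := n) M sd ok nb th).tc i w = c0 := if_neg v
    exact .of (.const (fun _ => by simp only [e]; trivial) 0) fun _ => if_neg v

theorem tp_std : TP M ls wl nb u th (Tr.std M ok nb th : Tr _ X.M lam h A' r n) := fun w => by
  have := M.con
  refine and_assoc.1 ⟨?_, fun i => ?_⟩
  · show Bas (w.tw M ok) ∧ Cf M u th ls (TmIn X.I · (w.tw M ok)) (w.tw M ok).Van
      fun s => w.co M ok (th s)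
    rcases w.cases_tw (M := M) (ok := ok) with ⟨ρ, k, v, e⟩ | ⟨i, a, k, j, e⟩ | ⟨j, e⟩ <;> rw [e]
    · exact ⟨v.bas, .of (.one k v.reg (ho _ v.ok v.reg) (fun _ => v.tm.mono)
        fun _ => van_of_in v.tm v.zc) fun _ => rfl⟩
    · rw [j]; exact ⟨trivial, .of (.const (fun _ => trivial) 1) fun _ => rfl⟩
    · rw [j]; exact ⟨trivial, .zero z0_in⟩
  · show Cf M u th _ (XiIn X.I · (w.tc M nb i).ξ) (fun O => nb i ⊆ O → (w.tc M nb i).ξ.Van O)
      fun s => w.cc M nb i (th s)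
    obtain ⟨x, h1, h2⟩ := hn i
    rcases w.cases_tc (M := M) (nb := nb) i with ⟨ρ, k, v, e⟩ | ⟨j, e⟩ <;> rw [e]
    · exact .of (.one k v.reg (out_of_mem v.reg (v.nb h1) h2) (fun _ => xi_mono v.xi)
        fun O d j => (disjoint_left.1 d (v.nb h1) (j h1)).elim) fun _ => rfl
    · rw [j]; exact .zero fun _ => trivial

end tp

end Crest.Agent.X212.Fex7
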